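import Mathlib

/-!
The random triangle removal process as a sequence of random variables on a probability space.
-/

set_option autoImplicit false

open MeasureTheory ProbabilityTheory
open scoped ENNReal

namespace Vale.Agent.P046R5

/-- The graph after `k` steps when `t 0, t 1, …` are the chosen vertex sets: start from `K_n`; step
`k` deletes the edges whose two ends lie in `t k` (for a triangle `t k`: its three edges). -/
def graphAt {n : ℕ} (t : ℕ → Finset (Fin n)) : ℕ → SimpleGraph (Fin n)
  | 0 => ⊤
  | k + 1 => (graphAt t k).deleteEdges {e | ∀ v ∈ e, v ∈ t k}

/-- The time at which the process stops: the first `k` such that the current graph has no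
triangle. -/
noncomputable def stopTime {n : ℕ} (t : ℕ → Finset (Fin n)) : ℕ :=
  sInf {k | (graphAt t k).CliqueFree 3}

/-- The number of edges of the final graph. -/
noncomputable def finalEdges {n : ℕ} (t : ℕ → Finset (Fin n)) : ℕ :=
  (graphAt t (stopTime t)).edgeSet.ncard

/-- `T 0, T 1, …` are the random choices of the triangle removal process on `K_n`: given the first
`k` choices, the next choice is each triangle of the current graph with probability
`1 / (number of triangles of the current graph)`. Nothing is required once no triangle is left. -/
structure IsRemoval {Ω : Type*} [MeasurableSpace Ω] (P : Measure Ω) {n : ℕ}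
    (T : ℕ → Ω → Finset (Fin n)) : Prop where
  measurable : ∀ k, Measurable (T k)
  uniform : ∀ (k : ℕ) (t : ℕ → Finset (Fin n)), P {ω | ∀ i < k, T i ω = t i} ≠ 0 →
    ∀ s ∈ (graphAt t k).cliqueSet 3,
      P[{ω | T k ω = s} | {ω | ∀ i < k, T i ω = t i}] =
        (((graphAt t k).cliqueSet 3).ncard : ℝ≥0∞)⁻¹

end Vale.Agent.P046R5
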