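import Vale.Agent.P046R5.Law

/-!
A removal process exists on a product probability space.
-/

set_option autoImplicit false

open scoped Classical ENNReal
open MeasureTheory ProbabilityTheory Vale.Agent.P046

namespace Vale.Agent.P046R5

variable {n : ℕ}

/-- A uniform triangle of `G`, or `∅` if there is none. -/
noncomputable def pick (G : SimpleGraph (Fin n)) : PMF (Finset (Fin n)) :=
  if h : (triangles G).Nonempty then PMF.uniformOfFinset _ h else PMF.pure ∅

/-- The graph at time `k` read from a table of independent choices. -/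
noncomputable def gr (ω : ℕ × SimpleGraph (Fin n) → Finset (Fin n)) : ℕ → SimpleGraph (Fin n)
  | 0 => ⊤
  | k + 1 => removeTriangle (gr ω k) (ω (k, gr ω k))

/-- The choice at time `k` read from the table. -/
noncomputable def ch (k : ℕ) (ω : ℕ × SimpleGraph (Fin n) → Finset (Fin n)) : Finset (Fin n) :=
  ω (k, gr ω k)

lemma graphAt_ch (ω : ℕ × SimpleGraph (Fin n) → Finset (Fin n)) :
    ∀ k, graphAt (fun i => ch i ω) k = gr ω k := by
  intro k
  induction k with
  | zero => rfl
  | succ k ih => rw [graphAt_succ, ih, gr, ch]

lemma meas_ch (k : ℕ) : Measurable (ch (n := n) k) := by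
  induction k using Nat.strong_induction_on with
  | _ k ih =>
    refine measurable_to_countable' fun s => ?_
    have : ch (n := n) k ⁻¹' {s} =
        ⋃ G, {ω | graphAt (fun i => ch i ω) k = G} ∩ (fun ω => ω (k, G)) ⁻¹' {s} := by
      ext ω
      simp only [Set.mem_preimage, Set.mem_singleton_iff, Set.mem_iUnion, Set.mem_inter_iff,
        Set.mem_ofPred_eq, graphAt_ch]
      exact ⟨fun h => ⟨_, rfl, h⟩, fun ⟨G, h1, h2⟩ => by rw [ch, h1, h2]⟩
    rw [this]
    exact MeasurableSet.iUnion fun G => (meas_graphAt k ih G).inter
      (measurable_pi_apply (k, G) (measurableSet_singleton s))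

lemma hist_ch (k : ℕ) (t : ℕ → Finset (Fin n)) :
    hist (ch (n := n)) k t =
      Set.pi ((Finset.range k).image (fun i => (i, graphAt t i)) : Finset _) fun p => {t p.1} := by
  ext ω
  simp only [hist, Set.mem_ofPred_eq, Finset.coe_image, Finset.coe_range, Set.mem_pi,
    Set.mem_image, Set.mem_Iio, Set.mem_singleton_iff, forall_exists_index, and_imp,
    forall_apply_eq_imp_iff₂]
  constructor
  · intro h i hi
    rw [← h i hi, ch, ← graphAt_ch, graphAt_congr i fun j hj => h j (hj.trans hi)]
  · intro h i
    induction i using Nat.strong_induction_on with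
    | _ i ih =>
      intro hi
      rw [← h i hi, ch, ← graphAt_ch, graphAt_congr i fun j hj => ih j hj (hj.trans hi)]

/-- The product law of the table. -/
noncomputable def tableLaw (n : ℕ) : Measure (ℕ × SimpleGraph (Fin n) → Finset (Fin n)) :=
  Measure.infinitePi fun p => (pick p.2).toMeasure

lemma prob_table (n : ℕ) : IsProbabilityMeasure (tableLaw n) := by
  unfold tableLaw
  infer_instance

lemma table_hist (k : ℕ) (t : ℕ → Finset (Fin n)) :
    tableLaw n (hist ch k t) = ∏ i ∈ Finset.range k, pick (graphAt t i) (t i) := by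
  rw [hist_ch, tableLaw, Measure.infinitePi_pi _ fun _ _ => measurableSet_singleton _,
    Finset.prod_image fun i _ j _ h => (Prod.ext_iff.1 h).1]
  exact Finset.prod_congr rfl fun i _ =>
    PMF.toMeasure_apply_singleton _ _ (measurableSet_singleton _)

lemma isRemoval_ch : IsRemoval (tableLaw n) ch where
  measurable := meas_ch
  uniform := by
    intro k t h0 s hs
    have hs' := mem_tri.2 hs
    have h0' : tableLaw n (hist ch k t) ≠ 0 := h0
    have := prob_table n
    have hne : (triangles (graphAt t k)).Nonempty := ⟨s, hs'⟩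
    have h1 : tableLaw n (hist ch k t ∩ ch k ⁻¹' {s}) =
        tableLaw n (hist ch k t) * ((triangles (graphAt t k)).card : ℝ≥0∞)⁻¹ := by
      have h2 : ∀ i ≤ k, graphAt (Function.update t k s) i = graphAt t i := fun i hi =>
        graphAt_congr i fun j hj => Function.update_of_ne (by omega) _ _
      rw [← hist_succ, table_hist, table_hist, Finset.prod_range_succ, h2 k le_rfl,
        Function.update_self, pick, dif_pos hne, PMF.uniformOfFinset_apply_of_mem _ hs']
      congr 1
      refine Finset.prod_congr rfl fun i hi => ?_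
      have hi' := Finset.mem_range.1 hi
      rw [h2 i hi'.le, Function.update_of_ne hi'.ne]
    have h3 := cond_apply (meas_hist meas_ch k t) (tableLaw n) (ch k ⁻¹' {s})
    rw [h1, ← mul_assoc, ENNReal.inv_mul_cancel h0' (measure_ne_top _ _), one_mul,
      ← card_tri] at h3
    exact h3

theorem exists_removal (n : ℕ) : ∃ (Ω : Type) (_ : MeasurableSpace Ω) (P : Measure Ω)
    (T : ℕ → Ω → Finset (Fin n)), IsProbabilityMeasure P ∧ IsRemoval P T :=
  ⟨_, _, tableLaw n, ch, prob_table n, isRemoval_ch⟩

end Vale.Agent.P046R5
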