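import Vale.Agent.P046R5.Path

/-!
The law of the final graph of a removal process is `finalGraph n`.
-/

set_option autoImplicit false

open scoped Classical ENNReal
open MeasureTheory ProbabilityTheory Vale.Agent.P046

namespace Vale.Agent.P046R5

variable {n : ℕ} {Ω : Type*} [MeasurableSpace Ω] {P : Measure Ω} {T : ℕ → Ω → Finset (Fin n)}

/-- The event that the first `k` choices are `t 0, …, t (k-1)`. -/
def hist (T : ℕ → Ω → Finset (Fin n)) (k : ℕ) (t : ℕ → Finset (Fin n)) : Set Ω :=
  {ω | ∀ i < k, T i ω = t i}

lemma meas_hist (h : ∀ i, Measurable (T i)) (k : ℕ) (t : ℕ → Finset (Fin n)) :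
    MeasurableSet (hist T k t) := by
  have : hist T k t = ⋂ i, ⋂ (_ : i < k), T i ⁻¹' {t i} := by
    ext ω
    simp [hist]
  rw [this]
  exact MeasurableSet.iInter fun i => MeasurableSet.iInter fun _ =>
    h i (measurableSet_singleton _)

omit [MeasurableSpace Ω] in
lemma hist_succ (k : ℕ) (t : ℕ → Finset (Fin n)) (s : Finset (Fin n)) :
    hist T (k + 1) (Function.update t k s) = hist T k t ∩ T k ⁻¹' {s} := by
  ext ω
  simp only [hist, Set.mem_ofPred_eq, Set.mem_inter_iff, Set.mem_preimage, Set.mem_singleton_iff]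
  constructor
  · intro h
    refine ⟨fun i hi => ?_, ?_⟩
    · rw [h i (by omega), Function.update_of_ne (by omega)]
    · rw [h k (by omega), Function.update_self]
  · rintro ⟨h1, h2⟩ i hi
    rcases Nat.lt_succ_iff_lt_or_eq.1 hi with hi | rfl
    · rw [h1 i hi, Function.update_of_ne (by omega)]
    · rw [h2, Function.update_self]

lemma split_sum (h : ∀ i, Measurable (T i)) (k : ℕ) {A : Set Ω} (hA : MeasurableSet A)
    (S : Finset (Finset (Fin n))) :
    P (A ∩ T k ⁻¹' (S : Set (Finset (Fin n)))) = ∑ s ∈ S, P (A ∩ T k ⁻¹' {s}) := by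
  have := sum_measure_preimage_singleton (μ := P.restrict A) S (f := T k)
    fun s _ => h k (measurableSet_singleton s)
  rw [Measure.restrict_apply' hA, Set.inter_comm] at this
  rw [← this]
  refine Finset.sum_congr rfl fun s _ => ?_
  rw [Measure.restrict_apply' hA, Set.inter_comm]

variable [IsProbabilityMeasure P]

lemma step_tri (hT : IsRemoval P T) (k : ℕ) (t : ℕ → Finset (Fin n)) {s : Finset (Fin n)}
    (hs : s ∈ triangles (graphAt t k)) :
    P (hist T k t ∩ T k ⁻¹' {s}) = P (hist T k t) * ((triangles (graphAt t k)).card : ℝ≥0∞)⁻¹ := by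
  by_cases h0 : P (hist T k t) = 0
  · rw [h0, zero_mul]
    exact measure_mono_null Set.inter_subset_left h0
  · have h1 := hT.uniform k t h0 s (mem_tri.1 hs)
    have h2 := cond_mul_eq_inter (meas_hist hT.measurable k t) {ω | T k ω = s} P
    rw [card_tri] at h1
    rw [mul_comm, ← h1]
    exact h2.symm

lemma off_null (hT : IsRemoval P T) (k : ℕ) (t : ℕ → Finset (Fin n))
    (hne : (triangles (graphAt t k)).Nonempty) :
    P (hist T k t ∩ (T k ⁻¹' (triangles (graphAt t k) : Set (Finset (Fin n))))ᶜ) = 0 := by
  have h1 : P (hist T k t ∩ T k ⁻¹' (triangles (graphAt t k) : Set (Finset (Fin n)))) =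
      P (hist T k t) := by
    rw [split_sum hT.measurable k (meas_hist hT.measurable k t),
      Finset.sum_congr rfl fun s hs => step_tri hT k t hs, Finset.sum_const, nsmul_eq_mul,
      mul_left_comm, ENNReal.mul_inv_cancel, mul_one]
    · exact_mod_cast hne.card_pos.ne'
    · exact ENNReal.natCast_ne_top _
  have h2 := measure_inter_add_sdiff (μ := P) (hist T k t)
    (hT.measurable k (Finset.measurableSet (triangles (graphAt t k))))
  rw [h1] at h2
  have h3 := (ENNReal.add_right_inj (measure_ne_top P (hist T k t))).1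
    (h2.trans (add_zero _).symm)
  rwa [Set.sdiff_eq] at h3

lemma step_all (hT : IsRemoval P T) (k : ℕ) (t : ℕ → Finset (Fin n))
    (hne : (triangles (graphAt t k)).Nonempty) (s : Finset (Fin n)) :
    P (hist T (k + 1) (Function.update t k s)) =
      P (hist T k t) * PMF.uniformOfFinset _ hne s := by
  rw [hist_succ]
  by_cases hs : s ∈ triangles (graphAt t k)
  · rw [step_tri hT k t hs, PMF.uniformOfFinset_apply_of_mem _ hs]
  · rw [PMF.uniformOfFinset_apply_of_notMem _ hs, mul_zero]
    refine measure_mono_null ?_ (off_null hT k t hne)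
    rintro ω ⟨h1, h2⟩
    refine ⟨h1, fun h3 => hs ?_⟩
    rw [← show T k ω = s from h2]
    exact h3

lemma run_frozen {G : SimpleGraph (Fin n)} (h : ¬ (triangles G).Nonempty) :
    ∀ m, run m G = PMF.pure G := by
  intro m
  induction m with
  | zero => rfl
  | succ m ih => rw [run, step, dif_neg h, PMF.pure_bind, ih]

omit [IsProbabilityMeasure P] in
lemma law_const (k j : ℕ) (t : ℕ → Finset (Fin n)) (G H : SimpleGraph (Fin n))
    (h : ∀ ω ∈ hist T k t, sg (fun i => T i ω) j = G) :
    P (hist T k t ∩ {ω | sg (fun i => T i ω) j = H}) = P (hist T k t) * PMF.pure G H := by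
  by_cases hH : H = G
  · rw [hH, PMF.pure_apply_self, mul_one]
    exact congrArg P (Set.inter_eq_left.2 h)
  · rw [PMF.pure_apply_of_ne _ _ hH, mul_zero]
    have : hist T k t ∩ {ω | sg (fun i => T i ω) j = H} = ∅ := by
      rw [Set.eq_empty_iff_forall_notMem]
      rintro ω ⟨h1, h2⟩
      exact hH ((show _ = H from h2).symm.trans (h ω h1))
    rw [this, measure_empty]

lemma law_run (hT : IsRemoval P T) (H : SimpleGraph (Fin n)) :
    ∀ (m k : ℕ) (t : ℕ → Finset (Fin n)),
      P (hist T k t ∩ {ω | sg (fun i => T i ω) (k + m) = H}) =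
        P (hist T k t) * run m (sg t k) H := by
  intro m
  induction m with
  | zero => exact fun k t => law_const k k t _ H fun _ hω => sg_congr k hω
  | succ m ih =>
    intro k t
    by_cases hne : (triangles (sg t k)).Nonempty
    · have hG := sg_eq_of_tri k hne
      have hne' : (triangles (graphAt t k)).Nonempty := hG ▸ hne
      have hA := (meas_hist hT.measurable k t).inter (meas_sg hT.measurable (k + (m + 1)) H)
      have h1 := split_sum (P := P) hT.measurable k hA Finset.univ
      rw [Finset.coe_univ, Set.preimage_univ, Set.inter_univ] at h1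
      rw [h1, run, step, dif_pos hne, PMF.bind_map, PMF.bind_apply, tsum_fintype,
        Finset.mul_sum]
      refine Finset.sum_congr rfl fun s _ => ?_
      have h2 := ih (k + 1) (Function.update t k s)
      have h3 : sg (Function.update t k s) (k + 1) = removeTriangle (sg t k) s := by
        have h4 : sg (Function.update t k s) k = sg t k :=
          sg_congr k fun i hi => Function.update_of_ne (by omega) _ _
        rw [sg, h4, if_pos hne, Function.update_self]
      have h5 : PMF.uniformOfFinset _ hne' s = PMF.uniformOfFinset _ hne s := by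
        simp only [PMF.uniformOfFinset_apply, hG]
      rw [step_all hT k t hne' s, h3, h5, hist_succ, show k + 1 + m = k + (m + 1) by omega,
        Set.inter_right_comm, mul_assoc] at h2
      exact h2
    · rw [run_frozen hne]
      refine law_const k _ t _ H fun ω hω => ?_
      have h4 : sg (fun i => T i ω) k = sg t k := sg_congr k hω
      rw [sg_frozen (h4 ▸ hne), h4]

lemma law_final (hT : IsRemoval P T) (H : SimpleGraph (Fin n)) :
    P {ω | sg (fun i => T i ω) (n.choose 2) = H} = finalGraph n H := by
  have h := law_run hT H (n.choose 2) 0 fun _ => ∅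
  have h0 : hist T 0 (fun _ => ∅) = Set.univ := by
    ext ω
    simp [hist]
  rw [h0, Set.univ_inter, measure_univ, one_mul, zero_add] at h
  exact h

lemma ae_free (hT : IsRemoval P T) :
    ∀ᵐ ω ∂P, (sg (fun i => T i ω) (n.choose 2)).CliqueFree 3 := by
  have : ∀ H : SimpleGraph (Fin n), ∀ᵐ ω ∂P,
      sg (fun i => T i ω) (n.choose 2) = H → H.CliqueFree 3 := by
    intro H
    by_cases hH : H.CliqueFree 3
    · exact Filter.Eventually.of_forall fun _ _ => hH
    · have h0 : finalGraph n H = 0 := by
        by_contra hc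
        exact hH (finalGraph_cliqueFree H hc)
      rw [ae_iff]
      refine measure_mono_null ?_ ((law_final hT H).trans h0)
      intro ω hω
      by_contra hc
      exact hω fun h => absurd h hc
  filter_upwards [ae_all_iff.2 this] with ω hω using hω _ rfl

lemma ae_tri (hT : IsRemoval P T) : ∀ᵐ ω ∂P, ∀ k,
    ¬ (graphAt (fun i => T i ω) k).CliqueFree 3 →
      T k ω ∈ (graphAt (fun i => T i ω) k).cliqueSet 3 := by
  refine ae_all_iff.2 fun k => ?_
  have : ∀ u : Fin k → Finset (Fin n), ∀ᵐ ω ∂P, (∀ i : Fin k, T i ω = u i) →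
      ¬ (graphAt (fun i => T i ω) k).CliqueFree 3 →
        T k ω ∈ (graphAt (fun i => T i ω) k).cliqueSet 3 := by
    intro u
    let t : ℕ → Finset (Fin n) := fun i => if h : i < k then u ⟨i, h⟩ else ∅
    have ht : ∀ ω, (∀ i : Fin k, T i ω = u i) → ω ∈ hist T k t := fun ω hω i hi => by
      simp only [t, dif_pos hi]
      exact hω ⟨i, hi⟩
    by_cases hne : (triangles (graphAt t k)).Nonempty
    · rw [ae_iff]
      refine measure_mono_null ?_ (off_null hT k t hne)
      intro ω hω
      simp only [Set.mem_ofPred_eq, Classical.not_imp] at hω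
      obtain ⟨h1, -, h3⟩ := hω
      refine ⟨ht ω h1, fun h4 => h3 ?_⟩
      rw [graphAt_congr k (ht ω h1)]
      exact mem_tri.1 h4
    · refine Filter.Eventually.of_forall fun ω h1 h2 => ?_
      rw [graphAt_congr k (ht ω h1)] at h2
      exact absurd (tri_nonempty.2 h2) hne
  filter_upwards [ae_all_iff.2 this] with ω hω using hω (fun i => T i ω) fun _ => rfl

end Vale.Agent.P046R5
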