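import Vale.Agent.P046R5.Exist

/-!
Transfer of the limit theorems to an arbitrary removal process.
-/

set_option autoImplicit false

open scoped Classical ENNReal
open Filter Asymptotics MeasureTheory ProbabilityTheory Vale.Agent.P046

namespace Vale.Agent.P046R5

section one

variable {n : ℕ} {Ω : Type*} [MeasurableSpace Ω] {P : Measure Ω} {T : ℕ → Ω → Finset (Fin n)}
  [IsProbabilityMeasure P]

lemma ae_final (hT : IsRemoval P T) : ∀ᵐ ω ∂P,
    finalEdges (fun i => T i ω) = numEdges (sg (fun i => T i ω) (n.choose 2)) := by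
  filter_upwards [ae_free hT] with ω hω
  rw [finalEdges, final_eq hω, numEdges_eq_ncard]

lemma ae_path (hT : IsRemoval P T) : ∀ᵐ ω ∂P,
    (graphAt (fun i => T i ω) (stopTime fun i => T i ω)).CliqueFree 3 ∧
    (∀ k < stopTime fun i => T i ω, T k ω ∈ (graphAt (fun i => T i ω) k).cliqueSet 3) ∧
    finalEdges (fun i => T i ω) + 3 * stopTime (fun i => T i ω) = n.choose 2 := by
  filter_upwards [ae_free hT, ae_tri hT] with ω h1 h2
  have h3 : ∀ k < stopTime fun i => T i ω, T k ω ∈ (graphAt (fun i => T i ω) k).cliqueSet 3 :=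
    fun k hk => h2 k (not_free_of_lt hk)
  exact ⟨final_eq h1 ▸ h1, h3, edges_add _ h3⟩

lemma prob_eq (hT : IsRemoval P T) (p : ℕ → Prop) :
    P {ω | p (finalEdges fun i => T i ω)} =
      (finalGraph n).toOuterMeasure {G | p (numEdges G)} := by
  have h1 : P {ω | p (finalEdges fun i => T i ω)} =
      P {ω | p (numEdges (sg (fun i => T i ω) (n.choose 2)))} := by
    refine measure_congr ?_
    filter_upwards [ae_final hT] with ω hω
    change p _ = p _
    rw [hω]
  have h2 : {ω | p (numEdges (sg (fun i => T i ω) (n.choose 2)))} =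
      ⋃ G ∈ Finset.univ.filter fun G : SimpleGraph (Fin n) => p (numEdges G),
        {ω | sg (fun i => T i ω) (n.choose 2) = G} := by
    ext ω
    simp
  rw [h1, h2, measure_biUnion_finset, PMF.toOuterMeasure_apply, tsum_fintype, Finset.sum_filter]
  · refine Finset.sum_congr rfl fun G _ => ?_
    rw [law_final hT G, Set.indicator_apply]
    rfl
  · intro G _ H _ hGH
    exact Set.disjoint_left.2 fun ω h1 h2 => hGH ((show _ = G from h1).symm.trans h2)
  · exact fun G _ => meas_sg hT.measurable _ G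

lemma integral_eq (hT : IsRemoval P T) (f : ℕ → ℝ) :
    Integrable (fun ω => f (finalEdges fun i => T i ω)) P ∧
    ∫ ω, f (finalEdges fun i => T i ω) ∂P = ∑ G, (finalGraph n G).toReal * f (numEdges G) := by
  have h1 : (fun ω => f (finalEdges fun i => T i ω)) =ᵐ[P] fun ω => ∑ G : SimpleGraph (Fin n),
      {ω | sg (fun i => T i ω) (n.choose 2) = G}.indicator (fun _ => f (numEdges G)) ω := by
    filter_upwards [ae_final hT] with ω hω
    rw [hω, Finset.sum_eq_single (sg (fun i => T i ω) (n.choose 2))]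
    · rw [Set.indicator_of_mem]
      rfl
    · intro G _ hG
      rw [Set.indicator_of_notMem]
      exact fun h => hG (Eq.symm h)
    · exact fun h => absurd (Finset.mem_univ _) h
  have h2 : ∀ G ∈ (Finset.univ : Finset (SimpleGraph (Fin n))), Integrable
      ({ω | sg (fun i => T i ω) (n.choose 2) = G}.indicator fun _ => f (numEdges G)) P :=
    fun G _ => (integrable_const _).indicator (meas_sg hT.measurable _ G)
  refine ⟨(integrable_finsetSum _ h2).congr h1.symm, ?_⟩
  rw [integral_congr_ae h1, integral_finsetSum _ h2]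
  refine Finset.sum_congr rfl fun G _ => ?_
  rw [integral_indicator_const _ (meas_sg hT.measurable _ G), Measure.real, law_final hT G,
    smul_eq_mul]

end one

variable {Ω : ℕ → Type*} [∀ n, MeasurableSpace (Ω n)] {P : ∀ n, Measure (Ω n)}
  [∀ n, IsProbabilityMeasure (P n)] {T : ∀ n, ℕ → Ω n → Finset (Fin n)}

theorem prob_lim (hT : ∀ n, IsRemoval (P n) (T n)) (ε : ℝ) (hε : 0 < ε) :
    Tendsto (fun n : ℕ => P n {ω | ε ≤
      |(finalEdges fun i => T n i ω : ℝ) / (n : ℝ) ^ (3 / 2 : ℝ) - 1 / (2 * √2)|})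
      atTop (nhds 0) := by
  have h := Lv.prob_limit Lv.core ε hε
  rw [← ENNReal.tendsto_toReal_zero_iff (fun n => measure_ne_top _ _)]
  refine h.congr fun n => ?_
  rw [prob_eq (hT n) fun m => ε ≤ |(m : ℝ) / (n : ℝ) ^ (3 / 2 : ℝ) - 1 / (2 * √2)|]

theorem mean_lim (hT : ∀ n, IsRemoval (P n) (T n)) :
    Tendsto (fun n : ℕ => (∫ ω, (finalEdges fun i => T n i ω : ℝ) ∂P n) / (n : ℝ) ^ (3 / 2 : ℝ))
      atTop (nhds (1 / (2 * √2))) := by
  refine (Lv.mean_limit Lv.core).congr fun n => ?_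
  rw [(integral_eq (hT n) fun m => (m : ℝ)).2]

theorem mean_theta (hT : ∀ n, IsRemoval (P n) (T n)) :
    (fun n : ℕ => ∫ ω, (finalEdges fun i => T n i ω : ℝ) ∂P n) =Θ[atTop]
      fun n : ℕ => (n : ℝ) ^ (3 / 2 : ℝ) :=
  (Asymptotics.isTheta_of_div_tendsto_nhds_ne_zero (mean_lim hT) (by positivity)).symm

theorem sq_lim (hT : ∀ n, IsRemoval (P n) (T n)) :
    Tendsto (fun n : ℕ => ∫ ω,
      ((finalEdges fun i => T n i ω : ℝ) / (n : ℝ) ^ (3 / 2 : ℝ) - 1 / (2 * √2)) ^ 2 ∂P n)
      atTop (nhds 0) := by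
  refine Lv.l2_limit.congr fun n => ?_
  rw [(integral_eq (hT n) fun m => ((m : ℝ) / (n : ℝ) ^ (3 / 2 : ℝ) - 1 / (2 * √2)) ^ 2).2]

end Vale.Agent.P046R5
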