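import Vale.Agent.P046R5.Defs
import Vale.Agent.P046.H796.L2

/-!
Deterministic facts on the path of the process, and measurability.
-/

set_option autoImplicit false

open scoped Classical
open MeasureTheory Vale.Agent.P046

namespace Vale.Agent.P046R5

variable {n : ℕ}

lemma graphAt_succ (t : ℕ → Finset (Fin n)) (k : ℕ) :
    graphAt t (k + 1) = removeTriangle (graphAt t k) (t k) := by
  have : {e : Sym2 (Fin n) | ∀ v ∈ e, v ∈ t k} = ((t k).sym2 : Set (Sym2 (Fin n))) := by
    ext e
    rw [Finset.mem_coe, Finset.mem_sym2_iff]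
    rfl
  rw [graphAt, removeTriangle, this]

lemma mem_tri {G : SimpleGraph (Fin n)} {s : Finset (Fin n)} :
    s ∈ triangles G ↔ s ∈ G.cliqueSet 3 := by
  unfold triangles
  rw [SimpleGraph.mem_cliqueFinset_iff, SimpleGraph.mem_cliqueSet_iff]

lemma card_tri (G : SimpleGraph (Fin n)) : (G.cliqueSet 3).ncard = (triangles G).card := by
  rw [← Set.ncard_coe_finset]
  congr 1
  ext s
  exact mem_tri.symm

lemma tri_nonempty {G : SimpleGraph (Fin n)} : (triangles G).Nonempty ↔ ¬ G.CliqueFree 3 := by
  unfold triangles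
  rw [Finset.nonempty_iff_ne_empty, Ne, SimpleGraph.cliqueFinset_eq_empty_iff]

lemma graphAt_congr {t u : ℕ → Finset (Fin n)} :
    ∀ k, (∀ i < k, t i = u i) → graphAt t k = graphAt u k := by
  intro k
  induction k with
  | zero => exact fun _ => rfl
  | succ k ih =>
    intro h
    rw [graphAt_succ, graphAt_succ, ih fun i hi => h i (by omega), h k (by omega)]

/-- The path frozen once no triangle is left. -/
noncomputable def sg (t : ℕ → Finset (Fin n)) : ℕ → SimpleGraph (Fin n)
  | 0 => ⊤
  | k + 1 => if (triangles (sg t k)).Nonempty then removeTriangle (sg t k) (t k) else sg t k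

lemma sg_congr {t u : ℕ → Finset (Fin n)} : ∀ k, (∀ i < k, t i = u i) → sg t k = sg u k := by
  intro k
  induction k with
  | zero => exact fun _ => rfl
  | succ k ih =>
    intro h
    rw [sg, sg, ih fun i hi => h i (by omega), h k (by omega)]

lemma sg_frozen {t : ℕ → Finset (Fin n)} {k : ℕ} (h : ¬ (triangles (sg t k)).Nonempty) :
    ∀ m, sg t (k + m) = sg t k := by
  intro m
  induction m with
  | zero => rfl
  | succ m ih => rw [← add_assoc, sg, ih, if_neg h]

lemma sg_eq_of_tri {t : ℕ → Finset (Fin n)} :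
    ∀ k, (triangles (sg t k)).Nonempty → sg t k = graphAt t k := by
  intro k
  induction k with
  | zero => exact fun _ => rfl
  | succ k ih =>
    intro h
    by_cases hk : (triangles (sg t k)).Nonempty
    · rw [sg, if_pos hk, graphAt_succ, ih hk]
    · rw [sg, if_neg hk] at h
      exact absurd h hk

lemma sg_eq_of_lt {t : ℕ → Finset (Fin n)} :
    ∀ k, (∀ j < k, ¬ (graphAt t j).CliqueFree 3) → sg t k = graphAt t k := by
  intro k
  induction k with
  | zero => exact fun _ => rfl
  | succ k ih0 =>
    intro h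
    have ih := ih0 fun j hj => h j (by omega)
    rw [sg, ih, if_pos (tri_nonempty.2 (h k (by omega))), graphAt_succ]

lemma not_free_of_lt {t : ℕ → Finset (Fin n)} {j : ℕ} (hj : j < stopTime t) :
    ¬ (graphAt t j).CliqueFree 3 :=
  Nat.notMem_of_lt_sInf hj

/-- If the frozen path is triangle-free at time `N`, it is the final graph. -/
lemma final_eq {t : ℕ → Finset (Fin n)} {N : ℕ} (h : (sg t N).CliqueFree 3) :
    graphAt t (stopTime t) = sg t N := by
  have h1 : ∃ k ≤ N, (graphAt t k).CliqueFree 3 := by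
    by_contra hc
    push Not at hc
    have := sg_eq_of_lt (t := t) N fun j hj => hc j hj.le
    exact hc N le_rfl (this ▸ h)
  obtain ⟨k, hkN, hk⟩ := h1
  have h2 : stopTime t ≤ k := Nat.sInf_le hk
  have h3 : (graphAt t (stopTime t)).CliqueFree 3 :=
    Nat.sInf_mem (s := {k | (graphAt t k).CliqueFree 3}) ⟨k, hk⟩
  have h4 : sg t (stopTime t) = graphAt t (stopTime t) :=
    sg_eq_of_lt _ fun j hj => not_free_of_lt hj
  have h5 : ¬ (triangles (sg t (stopTime t))).Nonempty := by
    rw [tri_nonempty, h4]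
    exact not_not.2 h3
  obtain ⟨m, hm⟩ := Nat.exists_eq_add_of_le (h2.trans hkN)
  rw [hm, sg_frozen h5 m, h4]

lemma edges_add {t : ℕ → Finset (Fin n)} :
    ∀ k, (∀ j < k, t j ∈ (graphAt t j).cliqueSet 3) →
      (graphAt t k).edgeSet.ncard + 3 * k = n.choose 2 := by
  intro k
  induction k with
  | zero =>
    intro _
    have := SimpleGraph.card_edgeFinset_top_eq_card_choose_two (V := Fin n)
    rw [Fintype.card_fin, ← Set.ncard_coe_finset, SimpleGraph.coe_edgeFinset] at this
    rw [mul_zero, add_zero, graphAt]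
    exact this
  | succ k ih0 =>
    intro h
    have ih := ih0 fun j hj => h j (by omega)
    have h3 := numEdges_removeTriangle (graphAt t k) (t k) (mem_tri.2 (h k (by omega)))
    rw [← graphAt_succ, numEdges_eq_ncard, numEdges_eq_ncard] at h3
    omega

section meas

variable {Ω : Type*} [MeasurableSpace Ω] {T : ℕ → Ω → Finset (Fin n)}

/-- Events determined by a recursively defined graph and the choices are measurable. -/
lemma meas_rec (X : ℕ → Ω → SimpleGraph (Fin n)) (h0 : ∀ ω, X 0 ω = ⊤)
    (f : SimpleGraph (Fin n) → Finset (Fin n) → SimpleGraph (Fin n))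
    (hs : ∀ k ω, X (k + 1) ω = f (X k ω) (T k ω)) :
    ∀ k, (∀ i < k, Measurable (T i)) → ∀ G, MeasurableSet {ω | X k ω = G} := by
  intro k
  induction k with
  | zero =>
    intro _ G
    simp only [h0]
    exact MeasurableSet.const _
  | succ k ih0 =>
    intro h H
    have ih := ih0 fun i hi => h i (by omega)
    have : {ω | X (k + 1) ω = H} = ⋃ p : {p : SimpleGraph (Fin n) × Finset (Fin n) //
        f p.1 p.2 = H}, {ω | X k ω = p.1.1} ∩ T k ⁻¹' {p.1.2} := by
      ext ω
      simp only [Set.mem_ofPred_eq, Set.mem_iUnion, Set.mem_inter_iff, Set.mem_preimage,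
        Set.mem_singleton_iff, hs]
      constructor
      · intro h
        exact ⟨⟨(X k ω, T k ω), h⟩, rfl, rfl⟩
      · rintro ⟨p, h1, h2⟩
        rw [h1, h2]
        exact p.2
    rw [this]
    exact MeasurableSet.iUnion fun p =>
      (ih _).inter (h k (by omega) (measurableSet_singleton _))

lemma meas_pred {X : Ω → SimpleGraph (Fin n)} (hX : ∀ G, MeasurableSet {ω | X ω = G})
    (p : SimpleGraph (Fin n) → Prop) : MeasurableSet {ω | p (X ω)} := by
  have : {ω | p (X ω)} = ⋃ G : {G // p G}, {ω | X ω = G.1} := by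
    ext ω
    simp only [Set.mem_ofPred_eq, Set.mem_iUnion]
    exact ⟨fun h => ⟨⟨X ω, h⟩, rfl⟩, fun ⟨G, h⟩ => h ▸ G.2⟩
  rw [this]
  exact MeasurableSet.iUnion fun G => hX _

lemma meas_graphAt (k : ℕ) (h : ∀ i < k, Measurable (T i)) (G : SimpleGraph (Fin n)) :
    MeasurableSet {ω | graphAt (fun i => T i ω) k = G} :=
  meas_rec (fun k ω => graphAt (fun i => T i ω) k) (fun _ => rfl) removeTriangle
    (fun k _ => graphAt_succ _ k) k h G

lemma meas_sg (h : ∀ i, Measurable (T i)) (k : ℕ) (G : SimpleGraph (Fin n)) :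
    MeasurableSet {ω | sg (fun i => T i ω) k = G} :=
  meas_rec (fun k ω => sg (fun i => T i ω) k) (fun _ => rfl)
    (fun G s => if (triangles G).Nonempty then removeTriangle G s else G)
    (fun _ _ => rfl) k (fun i _ => h i) G

lemma meas_stopTime (h : ∀ i, Measurable (T i)) :
    Measurable fun ω => stopTime fun i => T i ω := by
  have hf : ∀ k, MeasurableSet {ω | (graphAt (fun i => T i ω) k).CliqueFree 3} := fun k =>
    meas_pred (meas_graphAt k fun i _ => h i) (fun G => G.CliqueFree 3)
  refine measurable_to_countable' fun k => ?_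
  have : (fun ω => stopTime fun i => T i ω) ⁻¹' {k} =
      ({ω | (graphAt (fun i => T i ω) k).CliqueFree 3} ∩
        ⋂ j, ⋂ (_ : j < k), {ω | (graphAt (fun i => T i ω) j).CliqueFree 3}ᶜ) ∪
      ({_ω | k = 0} ∩ ⋂ j, {ω | (graphAt (fun i => T i ω) j).CliqueFree 3}ᶜ) := by
    ext ω
    simp only [Set.mem_preimage, Set.mem_singleton_iff, Set.mem_union, Set.mem_inter_iff,
      Set.mem_ofPred_eq, Set.mem_iInter, Set.mem_compl_iff]
    by_cases hne : {k | (graphAt (fun i => T i ω) k).CliqueFree 3}.Nonempty
    · constructor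
      · rintro rfl
        exact Or.inl ⟨Nat.sInf_mem hne, fun j hj => not_free_of_lt hj⟩
      · rintro (⟨h1, h2⟩ | ⟨-, h2⟩)
        · refine le_antisymm (Nat.sInf_le h1) ?_
          by_contra hc
          exact h2 _ (not_le.1 hc) (Nat.sInf_mem hne)
        · obtain ⟨j, hj⟩ := hne
          exact absurd hj (h2 j)
    · have h0 : stopTime (fun i => T i ω) = 0 := by
        rw [Set.not_nonempty_iff_eq_empty] at hne
        rw [stopTime, hne, Nat.sInf_empty]
      constructor
      · intro hk
        exact Or.inr ⟨by rw [← hk, h0], fun j hj => hne ⟨j, hj⟩⟩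
      · rintro (⟨h1, -⟩ | ⟨h1, -⟩)
        · exact absurd ⟨k, h1⟩ hne
        · rw [h0, h1]
  rw [this]
  exact ((hf k).inter (MeasurableSet.iInter fun j => MeasurableSet.iInter fun _ =>
    (hf j).compl)).union ((MeasurableSet.const _).inter
      (MeasurableSet.iInter fun j => (hf j).compl))

lemma meas_finalEdges (h : ∀ i, Measurable (T i)) :
    Measurable fun ω => finalEdges fun i => T i ω := by
  refine measurable_to_countable' fun m => ?_
  have : (fun ω => finalEdges fun i => T i ω) ⁻¹' {m} =
      ⋃ k, (fun ω => stopTime fun i => T i ω) ⁻¹' {k} ∩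
        {ω | (graphAt (fun i => T i ω) k).edgeSet.ncard = m} := by
    ext ω
    simp only [Set.mem_preimage, Set.mem_singleton_iff, Set.mem_iUnion, Set.mem_inter_iff,
      Set.mem_ofPred_eq]
    exact ⟨fun h => ⟨_, rfl, h⟩, fun ⟨k, h1, h2⟩ => by rw [finalEdges, h1, h2]⟩
  rw [this]
  exact MeasurableSet.iUnion fun k => (meas_stopTime h (measurableSet_singleton _)).inter
    (meas_pred (meas_graphAt k fun i _ => h i) (fun G => G.edgeSet.ncard = m))

end meas

end Vale.Agent.P046R5
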